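import Mathlib

/-!
Deterministic importance sampling: a derandomized Chernoff argument with exponential potentials.
-/

namespace Vale.Agent.Lib.P249

open Finset MeasureTheory

/-- The method of conditional expectations, abstractly. -/
theorem derand {Ω A : Type*} (P : Finset A) (Z : A → Ω → ℝ) (l α β : ℝ)
    (hpot : ∀ u v : A → ℝ, (∀ a, 0 ≤ u a) → (∀ a, 0 ≤ v a) → ∃ t : Ω,
      ∑ a ∈ P, (u a * Real.exp (l * Z a t - α) + v a * Real.exp (-(l * Z a t) - β)) ≤
        ∑ a ∈ P, (u a + v a))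
    (K : ℕ) : ∃ τ : Fin K → Ω,
      ∑ a ∈ P, (Real.exp (l * ∑ k, Z a (τ k) - K * α) +
        Real.exp (-(l * ∑ k, Z a (τ k)) - K * β)) ≤ 2 * P.card := by
  induction K with
  | zero =>
    refine ⟨Fin.elim0, ?_⟩
    simp only [Finset.univ_eq_empty, Finset.sum_empty, mul_zero, Nat.cast_zero, zero_mul, sub_zero,
      neg_zero, Real.exp_zero]
    rw [Finset.sum_const, nsmul_eq_mul]
    norm_num
    linarith
  | succ K ih =>
    obtain ⟨τ, hτ⟩ := ih
    obtain ⟨t, ht⟩ := hpot (fun a => Real.exp (l * ∑ k, Z a (τ k) - K * α))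
      (fun a => Real.exp (-(l * ∑ k, Z a (τ k)) - K * β))
      (fun a => (Real.exp_pos _).le) (fun a => (Real.exp_pos _).le)
    refine ⟨Fin.cons t τ, le_trans (le_of_eq ?_) (ht.trans hτ)⟩
    apply Finset.sum_congr rfl
    intro a _
    have hsum : ∑ k, Z a ((Fin.cons t τ : Fin (K + 1) → Ω) k) = Z a t + ∑ k, Z a (τ k) := by
      rw [Fin.sum_univ_succ]
      simp
    rw [hsum, ← Real.exp_add, ← Real.exp_add]
    congr 2 <;> (push_cast; ring)

/-- Two-sided bounds extracted from the potential. -/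
theorem derand_bounds {Ω A : Type*} (P : Finset A) (Z : A → Ω → ℝ) (l α β : ℝ)
    (hpot : ∀ u v : A → ℝ, (∀ a, 0 ≤ u a) → (∀ a, 0 ≤ v a) → ∃ t : Ω,
      ∑ a ∈ P, (u a * Real.exp (l * Z a t - α) + v a * Real.exp (-(l * Z a t) - β)) ≤
        ∑ a ∈ P, (u a + v a))
    (K : ℕ) : ∃ τ : Fin K → Ω, ∀ a ∈ P,
      l * ∑ k, Z a (τ k) ≤ K * α + Real.log (2 * P.card) ∧
      -(l * ∑ k, Z a (τ k)) ≤ K * β + Real.log (2 * P.card) := by
  obtain ⟨τ, hτ⟩ := derand P Z l α β hpot K
  refine ⟨τ, fun a ha => ?_⟩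
  have hcard : (0 : ℝ) < 2 * P.card := by
    have : 0 < P.card := Finset.card_pos.mpr ⟨a, ha⟩
    positivity
  have hterm : Real.exp (l * ∑ k, Z a (τ k) - K * α) +
      Real.exp (-(l * ∑ k, Z a (τ k)) - K * β) ≤ 2 * P.card :=
    le_trans (Finset.single_le_sum
      (f := fun a => Real.exp (l * ∑ k, Z a (τ k) - K * α) +
        Real.exp (-(l * ∑ k, Z a (τ k)) - K * β))
      (fun b _ => by positivity) ha) hτ
  have h1 : Real.exp (l * ∑ k, Z a (τ k) - K * α) ≤ 2 * P.card := by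
    have := Real.exp_pos (-(l * ∑ k, Z a (τ k)) - K * β)
    linarith
  have h2 : Real.exp (-(l * ∑ k, Z a (τ k)) - K * β) ≤ 2 * P.card := by
    have := Real.exp_pos (l * ∑ k, Z a (τ k) - K * α)
    linarith
  have h3 := (Real.le_log_iff_exp_le hcard).mpr h1
  have h4 := (Real.le_log_iff_exp_le hcard).mpr h2
  constructor <;> linarith

/-- Elementary exponential bound on `[0, M]` for small `l`. -/
lemma exp_le_one_add (l M z : ℝ) (hl : 0 < l) (hlM : l * M ≤ 1) (hz0 : 0 ≤ z) (hzM : z ≤ M) :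
    Real.exp (l * z) ≤ 1 + (l + l ^ 2 * M) * z := by
  have hlz : l * z ≤ 1 := (mul_le_mul_of_nonneg_left hzM hl.le).trans hlM
  have habs : |l * z| ≤ 1 := by
    rw [abs_of_nonneg (mul_nonneg hl.le hz0)]
    exact hlz
  have h := Real.abs_exp_sub_one_sub_id_le habs
  have h2 := (abs_le.mp h).2
  have h3 : (l * z) ^ 2 ≤ l ^ 2 * M * z := by
    have : z * z ≤ M * z := mul_le_mul_of_nonneg_right hzM hz0
    have hl2 : 0 ≤ l ^ 2 := by positivity
    nlinarith
  nlinarith

lemma exp_neg_le_one_add (l M z : ℝ) (hl : 0 < l) (hlM : l * M ≤ 1) (hz0 : 0 ≤ z) (hzM : z ≤ M) :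
    Real.exp (-(l * z)) ≤ 1 + (-l + l ^ 2 * M) * z := by
  have hlz : l * z ≤ 1 := (mul_le_mul_of_nonneg_left hzM hl.le).trans hlM
  have habs : |-(l * z)| ≤ 1 := by
    rw [abs_neg, abs_of_nonneg (mul_nonneg hl.le hz0)]
    exact hlz
  have h := Real.abs_exp_sub_one_sub_id_le habs
  have h2 := (abs_le.mp h).2
  have h3 : (-(l * z)) ^ 2 ≤ l ^ 2 * M * z := by
    have : z * z ≤ M * z := mul_le_mul_of_nonneg_right hzM hz0
    have hl2 : 0 ≤ l ^ 2 := by positivity
    nlinarith
  nlinarith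

/-- The averaging step: for nonnegative weights, some point does not increase the potential. -/
theorem oracle {Ω A : Type*} [MeasurableSpace Ω] (μ : Measure Ω) (P : Finset A) (s : Ω → ℝ)
    (w : A → Ω → ℝ) (S M l : ℝ) (hS : 0 < S) (hl : 0 < l) (hlM : l * M ≤ 1)
    (hs0 : ∀ t, 0 ≤ s t) (hsi : Integrable s μ) (hsint : ∫ t, s t ∂μ = S)
    (hw0 : ∀ a t, 0 ≤ w a t) (hwi : ∀ a ∈ P, Integrable (w a) μ)
    (hwint : ∀ a ∈ P, ∫ t, w a t ∂μ = 1) (hwle : ∀ a ∈ P, ∀ t, S * w a t ≤ M * s t)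
    (hM : 0 ≤ M)
    (u v : A → ℝ) (hu : ∀ a, 0 ≤ u a) (hv : ∀ a, 0 ≤ v a) :
    ∃ t : Ω, ∑ a ∈ P, (u a * Real.exp (l * (S * w a t / s t) - (l + l ^ 2 * M)) +
        v a * Real.exp (-(l * (S * w a t / s t)) - (-l + l ^ 2 * M))) ≤ ∑ a ∈ P, (u a + v a) := by
  set Z : A → Ω → ℝ := fun a t => S * w a t / s t with hZ
  set α : ℝ := l + l ^ 2 * M with hα
  set β : ℝ := -l + l ^ 2 * M with hβ
  have hZ0 : ∀ a t, 0 ≤ Z a t := fun a t =>
    div_nonneg (mul_nonneg hS.le (hw0 a t)) (hs0 t)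
  have hsZ : ∀ a ∈ P, ∀ t, s t * Z a t = S * w a t := by
    intro a ha t
    by_cases hst : s t = 0
    · have h1 := hwle a ha t
      rw [hst, mul_zero] at h1
      have h2 : S * w a t = 0 := le_antisymm h1 (mul_nonneg hS.le (hw0 a t))
      simp [hZ, hst, h2]
    · simp only [hZ]
      field_simp
  have hZM : ∀ a ∈ P, ∀ t, Z a t ≤ M := by
    intro a ha t
    by_cases hst : s t = 0
    · simp [hZ, hst, hM]
    · have hpos : 0 < s t := lt_of_le_of_ne (hs0 t) (Ne.symm hst)
      simp only [hZ]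
      rw [div_le_iff₀ hpos]
      exact hwle a ha t
  -- majorants
  set gp : A → Ω → ℝ := fun a t => Real.exp (-α) * (s t + α * (S * w a t)) with hgp
  set gm : A → Ω → ℝ := fun a t => Real.exp (-β) * (s t + β * (S * w a t)) with hgm
  have hgpi : ∀ a ∈ P, Integrable (gp a) μ := fun a ha =>
    (hsi.add (((hwi a ha).const_mul S).const_mul α)).const_mul _
  have hgmi : ∀ a ∈ P, Integrable (gm a) μ := fun a ha =>
    (hsi.add (((hwi a ha).const_mul S).const_mul β)).const_mul _
  have hgpint : ∀ a ∈ P, ∫ t, gp a t ∂μ ≤ S := by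
    intro a ha
    simp only [hgp]
    rw [integral_const_mul, integral_add hsi (((hwi a ha).const_mul S).const_mul α),
      integral_const_mul, integral_const_mul, hsint, hwint a ha]
    have h1 : 1 + α ≤ Real.exp α := by linarith [Real.add_one_le_exp α]
    have h2 : Real.exp (-α) * Real.exp α = 1 := by rw [← Real.exp_add]; simp
    have h3 : 0 < Real.exp (-α) := Real.exp_pos _
    calc Real.exp (-α) * (S + α * (S * 1)) = S * (Real.exp (-α) * (1 + α)) := by ring
      _ ≤ S * (Real.exp (-α) * Real.exp α) := by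
        apply mul_le_mul_of_nonneg_left _ hS.le
        exact mul_le_mul_of_nonneg_left h1 h3.le
      _ = S := by rw [h2, mul_one]
  have hgmint : ∀ a ∈ P, ∫ t, gm a t ∂μ ≤ S := by
    intro a ha
    simp only [hgm]
    rw [integral_const_mul, integral_add hsi (((hwi a ha).const_mul S).const_mul β),
      integral_const_mul, integral_const_mul, hsint, hwint a ha]
    have h1 : 1 + β ≤ Real.exp β := by linarith [Real.add_one_le_exp β]
    have h2 : Real.exp (-β) * Real.exp β = 1 := by rw [← Real.exp_add]; simp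
    have h3 : 0 < Real.exp (-β) := Real.exp_pos _
    calc Real.exp (-β) * (S + β * (S * 1)) = S * (Real.exp (-β) * (1 + β)) := by ring
      _ ≤ S * (Real.exp (-β) * Real.exp β) := by
        apply mul_le_mul_of_nonneg_left _ hS.le
        exact mul_le_mul_of_nonneg_left h1 h3.le
      _ = S := by rw [h2, mul_one]
  have hgp_pt : ∀ a ∈ P, ∀ t, s t * Real.exp (l * Z a t - α) ≤ gp a t := by
    intro a ha t
    have h1 := exp_le_one_add l M (Z a t) hl hlM (hZ0 a t) (hZM a ha t)
    have h3 : s t * Real.exp (l * Z a t) ≤ s t + α * (S * w a t) := by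
      rw [← hsZ a ha t]
      nlinarith [hs0 t]
    have h4 : Real.exp (l * Z a t - α) = Real.exp (-α) * Real.exp (l * Z a t) := by
      rw [← Real.exp_add]; congr 1; ring
    rw [h4]
    simp only [hgp]
    have h5 := Real.exp_pos (-α)
    nlinarith
  have hgm_pt : ∀ a ∈ P, ∀ t, s t * Real.exp (-(l * Z a t) - β) ≤ gm a t := by
    intro a ha t
    have h1 := exp_neg_le_one_add l M (Z a t) hl hlM (hZ0 a t) (hZM a ha t)
    have h3 : s t * Real.exp (-(l * Z a t)) ≤ s t + β * (S * w a t) := by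
      rw [← hsZ a ha t]
      nlinarith [hs0 t]
    have h4 : Real.exp (-(l * Z a t) - β) = Real.exp (-β) * Real.exp (-(l * Z a t)) := by
      rw [← Real.exp_add]; congr 1; ring
    rw [h4]
    simp only [hgm]
    have h5 := Real.exp_pos (-β)
    nlinarith
  -- the total majorant
  set R : Ω → ℝ := fun t => ∑ a ∈ P, (u a * gp a t + v a * gm a t) with hR
  set C : ℝ := ∑ a ∈ P, (u a + v a) with hC
  have hRi : Integrable R μ := by
    apply integrable_finsetSum
    intro a ha
    exact ((hgpi a ha).const_mul _).add ((hgmi a ha).const_mul _)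
  have hRint : ∫ t, R t ∂μ ≤ S * C := by
    have e : ∫ t, R t ∂μ = ∑ a ∈ P, ∫ t, (u a * gp a t + v a * gm a t) ∂μ :=
      integral_finsetSum P (f := fun a t => u a * gp a t + v a * gm a t) (fun a ha =>
        ((hgpi a ha).const_mul _).add ((hgmi a ha).const_mul _))
    rw [e, hC, Finset.mul_sum]
    apply Finset.sum_le_sum
    intro a ha
    have e1 : ∫ t, (u a * gp a t + v a * gm a t) ∂μ =
        u a * ∫ t, gp a t ∂μ + v a * ∫ t, gm a t ∂μ := by
      rw [integral_add ((hgpi a ha).const_mul _) ((hgmi a ha).const_mul _)]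
      congr 1 <;> exact integral_const_mul _ _
    rw [e1]
    have h1 := mul_le_mul_of_nonneg_left (hgpint a ha) (hu a)
    have h2 := mul_le_mul_of_nonneg_left (hgmint a ha) (hv a)
    nlinarith
  by_contra hcon
  push Not at hcon
  -- pointwise comparison
  have hpt : ∀ t, s t * (∑ a ∈ P, (u a * Real.exp (l * Z a t - α) +
      v a * Real.exp (-(l * Z a t) - β))) ≤ R t := by
    intro t
    rw [Finset.mul_sum]
    apply Finset.sum_le_sum
    intro a ha
    have h1 := mul_le_mul_of_nonneg_left (hgp_pt a ha t) (hu a)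
    have h2 := mul_le_mul_of_nonneg_left (hgm_pt a ha t) (hv a)
    nlinarith
  have hnonneg : ∀ t, 0 ≤ R t - s t * C := by
    intro t
    have h1 := hpt t
    have h2 := (hcon t).le
    have h3 := mul_le_mul_of_nonneg_left h2 (hs0 t)
    linarith
  have hfi : Integrable (fun t => R t - s t * C) μ := hRi.sub (hsi.mul_const C)
  have hint0 : ∫ t, (R t - s t * C) ∂μ = 0 := by
    apply le_antisymm
    · rw [integral_sub hRi (hsi.mul_const C), integral_mul_const, hsint]
      linarith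
    · exact integral_nonneg hnonneg
  have hae := (integral_eq_zero_iff_of_nonneg hnonneg hfi).mp hint0
  have hs_zero : s =ᵐ[μ] 0 := by
    filter_upwards [hae] with t ht
    have ht' : R t - s t * C = 0 := ht
    have h1 := hpt t
    have h2 := hcon t
    by_contra hne
    have hpos : 0 < s t := lt_of_le_of_ne (hs0 t) (Ne.symm hne)
    have h3 := mul_lt_mul_of_pos_left h2 hpos
    linarith
  have : ∫ t, s t ∂μ = 0 := by
    rw [integral_congr_ae hs_zero]
    simp
  linarith

/-- The sampling theorem: finitely many points of `Ω` whose weighted average recovers the integrals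
of all the `w a` up to a multiplicative `1 ± ε`. -/
theorem sampling {Ω A : Type*} [MeasurableSpace Ω] (μ : Measure Ω) (P : Finset A) (s : Ω → ℝ)
    (w : A → Ω → ℝ) (S M ε : ℝ) (K : ℕ) (hS : 0 < S) (hM : 0 < M) (hε : 0 < ε) (hε1 : ε ≤ 1)
    (hs0 : ∀ t, 0 ≤ s t) (hsi : Integrable s μ) (hsint : ∫ t, s t ∂μ = S)
    (hw0 : ∀ a t, 0 ≤ w a t) (hwi : ∀ a ∈ P, Integrable (w a) μ)
    (hwint : ∀ a ∈ P, ∫ t, w a t ∂μ = 1) (hwle : ∀ a ∈ P, ∀ t, S * w a t ≤ M * s t)
    (hK : 4 * M * Real.log (2 * P.card) / ε ^ 2 ≤ K) :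
    ∃ τ : Fin K → Ω, ∀ a ∈ P,
      (1 - ε) * K ≤ ∑ k, S * w a (τ k) / s (τ k) ∧
      ∑ k, S * w a (τ k) / s (τ k) ≤ (1 + ε) * K := by
  set l : ℝ := ε / (2 * M) with hl
  have hlpos : 0 < l := by positivity
  have hlM : l * M = ε / 2 := by
    simp only [hl]
    field_simp
  have hlM1 : l * M ≤ 1 := by rw [hlM]; linarith
  obtain ⟨τ, hτ⟩ := derand_bounds P (fun a t => S * w a t / s t) l (l + l ^ 2 * M) (-l + l ^ 2 * M)
    (fun u v hu hv => oracle μ P s w S M l hS hlpos hlM1 hs0 hsi hsint hw0 hwi hwint hwle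
      hM.le u v hu hv) K
  refine ⟨τ, fun a ha => ?_⟩
  obtain ⟨h1, h2⟩ := hτ a ha
  set L : ℝ := Real.log (2 * P.card) with hL
  set T : ℝ := ∑ k, S * w a (τ k) / s (τ k) with hT
  have hKL : L ≤ l * (ε / 2) * K := by
    -- from `4 M L / ε ^ 2 ≤ K`
    have h3 : 4 * M * L ≤ K * ε ^ 2 := by
      rw [div_le_iff₀ (by positivity)] at hK
      exact hK
    have h4 : l * (ε / 2) * K = K * ε ^ 2 / (4 * M) := by
      simp only [hl]
      field_simp
      ring
    rw [h4, le_div_iff₀ (by positivity)]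
    linarith
  have e1 : (K : ℝ) * (l + l ^ 2 * M) = K * l * (1 + ε / 2) := by
    have : l ^ 2 * M = l * (l * M) := by ring
    rw [this, hlM]
    ring
  have e2 : (K : ℝ) * (-l + l ^ 2 * M) = K * l * (-1 + ε / 2) := by
    have : l ^ 2 * M = l * (l * M) := by ring
    rw [this, hlM]
    ring
  rw [e1] at h1
  rw [e2] at h2
  constructor
  · have h5 : l * ((1 - ε) * K) ≤ l * T := by nlinarith
    exact le_of_mul_le_mul_left h5 hlpos
  · have h5 : l * T ≤ l * ((1 + ε) * K) := by nlinarith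
    exact le_of_mul_le_mul_left h5 hlpos

end Vale.Agent.Lib.P249
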