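import Mathlib

/-!
Sparse hop-limited spanners of finite weighted complete graphs.

For `r` with `card V ≤ 2 ^ r` we build an edge set `G` with at most `card V * r` edges such that any
two points `u ≠ v` are joined by a path of at most `2 * r` edges of `G`, all of weight at most the
weight of `(u, v)`.  The edge count comes from a product potential on hop-balls.
-/

namespace Vale.Agent.Lib.P249

open Finset

set_option linter.unusedSectionVars false

variable {V : Type*} [Fintype V] [DecidableEq V]

/-- Adjacency in an edge set, in either orientation. -/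
def Adj (G : Finset (V × V)) (x y : V) : Prop := (x, y) ∈ G ∨ (y, x) ∈ G

/-- `Conn G m u v`: `v` can be reached from `u` in at most `m` steps along edges of `G`. -/
def Conn (G : Finset (V × V)) : ℕ → V → V → Prop
  | 0, u, v => u = v
  | m + 1, u, v => Conn G m u v ∨ ∃ x, Conn G m u x ∧ Adj G x v

lemma adj_symm {G : Finset (V × V)} {x y : V} (h : Adj G x y) : Adj G y x := Or.symm h

lemma conn_succ_of_conn {G : Finset (V × V)} {m : ℕ} {u v : V} (h : Conn G m u v) :
    Conn G (m + 1) u v := Or.inl h

lemma conn_mono_steps {G : Finset (V × V)} {m m' : ℕ} {u v : V} (hm : m ≤ m')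
    (h : Conn G m u v) : Conn G m' u v := by
  induction m', hm using Nat.le_induction with
  | base => exact h
  | succ k _ ih => exact conn_succ_of_conn ih

lemma conn_self (G : Finset (V × V)) (m : ℕ) (u : V) : Conn G m u u :=
  conn_mono_steps (Nat.zero_le m) (rfl : Conn G 0 u u)

lemma conn_mono_graph {G G' : Finset (V × V)} (hG : G ⊆ G') {m : ℕ} {u v : V}
    (h : Conn G m u v) : Conn G' m u v := by
  induction m generalizing v with
  | zero => exact h
  | succ m ih =>
    rcases h with h | ⟨x, hx, hadj⟩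
    · exact Or.inl (ih h)
    · refine Or.inr ⟨x, ih hx, ?_⟩
      rcases hadj with h | h
      · exact Or.inl (hG h)
      · exact Or.inr (hG h)

lemma conn_trans {G : Finset (V × V)} {a b : ℕ} {u v w : V}
    (h₁ : Conn G a u v) (h₂ : Conn G b v w) : Conn G (a + b) u w := by
  induction b generalizing w with
  | zero =>
    have : v = w := h₂
    subst this
    exact h₁
  | succ b ih =>
    rcases h₂ with h | ⟨x, hx, hadj⟩
    · exact Or.inl (ih h)
    · exact Or.inr ⟨x, ih hx, hadj⟩

lemma conn_of_adj {G : Finset (V × V)} {x y : V} (h : Adj G x y) : Conn G 1 x y :=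
  Or.inr ⟨x, rfl, h⟩

lemma conn_symm {G : Finset (V × V)} {m : ℕ} {u v : V} (h : Conn G m u v) : Conn G m v u := by
  induction m generalizing u v with
  | zero =>
    have : u = v := h
    subst this
    rfl
  | succ m ih =>
    rcases h with h | ⟨x, hx, hadj⟩
    · exact Or.inl (ih h)
    · have h1 : Conn G 1 v x := conn_of_adj (adj_symm hadj)
      have h2 : Conn G m x u := ih hx
      have h3 := conn_trans h1 h2
      rwa [Nat.add_comm] at h3

open Classical in
/-- The ball of hop radius `j` around `u`. -/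
noncomputable def ball (G : Finset (V × V)) (u : V) (j : ℕ) : Finset V :=
  univ.filter (fun y => Conn G j u y)

lemma mem_ball {G : Finset (V × V)} {u y : V} {j : ℕ} : y ∈ ball G u j ↔ Conn G j u y := by
  simp [ball]

lemma ball_card_pos (G : Finset (V × V)) (u : V) (j : ℕ) : 0 < (ball G u j).card :=
  Finset.card_pos.mpr ⟨u, mem_ball.mpr (conn_self G j u)⟩

lemma ball_card_le (G : Finset (V × V)) (u : V) (j : ℕ) :
    (ball G u j).card ≤ Fintype.card V := Finset.card_le_univ _

lemma ball_zero_card (G : Finset (V × V)) (u : V) : (ball G u 0).card = 1 := by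
  have : ball G u 0 = {u} := by
    ext y
    rw [mem_ball, mem_singleton]
    exact ⟨fun h => (h : u = y).symm, fun h => (h.symm : u = y)⟩
  rw [this, card_singleton]

lemma ball_mono_graph {G G' : Finset (V × V)} (hG : G ⊆ G') (u : V) (j : ℕ) :
    ball G u j ⊆ ball G' u j := fun _ hy => mem_ball.mpr (conn_mono_graph hG (mem_ball.mp hy))

/-- Adding an edge between two far-apart points enlarges balls by a disjoint ball. -/
lemma card_step {G G' : Finset (V × V)} {u v : V} {r j : ℕ} (hG : G ⊆ G') (hadj : Adj G' u v)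
    (hfar : ¬ Conn G (2 * r) u v) (hj : j < r) :
    (ball G u (j + 1)).card + (ball G v j).card ≤ (ball G' u (j + 1)).card := by
  have hdisj : Disjoint (ball G u (j + 1)) (ball G v j) := by
    rw [Finset.disjoint_left]
    intro y hy1 hy2
    apply hfar
    have h1 := mem_ball.mp hy1
    have h2 := conn_symm (mem_ball.mp hy2)
    exact conn_mono_steps (by omega) (conn_trans h1 h2)
  rw [← Finset.card_union_of_disjoint hdisj]
  apply Finset.card_le_card
  intro y hy
  rcases Finset.mem_union.mp hy with hy | hy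
  · exact ball_mono_graph hG _ _ hy
  · apply mem_ball.mpr
    have h1 : Conn G' 1 u v := conn_of_adj hadj
    have h2 : Conn G' j v y := conn_mono_graph hG (mem_ball.mp hy)
    have h3 := conn_trans h1 h2
    rwa [Nat.add_comm] at h3

/-- Per-vertex part of the potential. -/
noncomputable def vpot (G : Finset (V × V)) (r : ℕ) (x : V) : ℝ :=
  ∏ j ∈ range r, ((ball G x (j + 1)).card : ℝ)

/-- The potential: the product over all vertices and radii of ball sizes. -/
noncomputable def pot (G : Finset (V × V)) (r : ℕ) : ℝ := ∏ x, vpot G r x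

lemma vpot_pos (G : Finset (V × V)) (r : ℕ) (x : V) : 0 < vpot G r x :=
  Finset.prod_pos fun _ _ => by exact_mod_cast ball_card_pos G x _

lemma vpot_mono {G G' : Finset (V × V)} (hG : G ⊆ G') (r : ℕ) (x : V) :
    vpot G r x ≤ vpot G' r x := by
  apply Finset.prod_le_prod
  · intro j _
    positivity
  · intro j _
    exact_mod_cast Finset.card_le_card (ball_mono_graph hG x (j + 1))

/-- The key numeric step: two vertices joined across a long distance gain a factor `2 ^ r`
jointly. -/
lemma vpot_step {G G' : Finset (V × V)} {u v : V} {r : ℕ} (hG : G ⊆ G') (hadj : Adj G' u v)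
    (hfar : ¬ Conn G (2 * r) u v) (hn : Fintype.card V ≤ 2 ^ r) :
    2 ^ r * (vpot G r u * vpot G r v) ≤ vpot G' r u * vpot G' r v := by
  classical
  set a : ℕ → ℝ := fun j => ((ball G u j).card : ℝ) with ha
  set c : ℕ → ℝ := fun j => ((ball G v j).card : ℝ) with hc
  set a' : ℕ → ℝ := fun j => ((ball G' u j).card : ℝ) with ha'
  set c' : ℕ → ℝ := fun j => ((ball G' v j).card : ℝ) with hc'
  have ha_pos : ∀ j, 0 < a j := fun j => by
    simp only [ha]; exact_mod_cast ball_card_pos G u j
  have hc_pos : ∀ j, 0 < c j := fun j => by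
    simp only [hc]; exact_mod_cast ball_card_pos G v j
  have ha'_pos : ∀ j, 0 < a' j := fun j => by
    simp only [ha']; exact_mod_cast ball_card_pos G' u j
  have hc'_pos : ∀ j, 0 < c' j := fun j => by
    simp only [hc']; exact_mod_cast ball_card_pos G' v j
  have hfar' : ¬ Conn G (2 * r) v u := fun h => hfar (conn_symm h)
  have step1 : ∀ j, j < r → a (j + 1) + c j ≤ a' (j + 1) := fun j hj => by
    simp only [ha, hc, ha']
    exact_mod_cast card_step hG hadj hfar hj
  have step2 : ∀ j, j < r → c (j + 1) + a j ≤ c' (j + 1) := fun j hj => by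
    simp only [ha, hc, hc']
    exact_mod_cast card_step hG (adj_symm hadj) hfar' hj
  set A : ℕ → ℝ := fun j => a j * c j with hA
  have hA_pos : ∀ j, 0 < A j := fun j => mul_pos (ha_pos j) (hc_pos j)
  have key : ∀ j, j < r → 16 * (A (j + 1) * A j) ≤ (a' (j + 1) * c' (j + 1)) ^ 2 := by
    intro j hj
    have h1 := step1 j hj
    have h2 := step2 j hj
    have e1 : 4 * (a (j + 1) * c j) ≤ (a' (j + 1)) ^ 2 := by
      have : 0 < a (j + 1) + c j := add_pos (ha_pos _) (hc_pos _)
      nlinarith [sq_nonneg (a (j + 1) - c j), ha_pos (j + 1), hc_pos j]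
    have e2 : 4 * (c (j + 1) * a j) ≤ (c' (j + 1)) ^ 2 := by
      have : 0 < c (j + 1) + a j := add_pos (hc_pos _) (ha_pos _)
      nlinarith [sq_nonneg (c (j + 1) - a j), hc_pos (j + 1), ha_pos j]
    have e3 : (4 * (a (j + 1) * c j)) * (4 * (c (j + 1) * a j)) ≤
        (a' (j + 1)) ^ 2 * (c' (j + 1)) ^ 2 := by
      apply mul_le_mul e1 e2
      · have := mul_pos (hc_pos (j + 1)) (ha_pos j)
        positivity
      · positivity
    have e4 : (a' (j + 1)) ^ 2 * (c' (j + 1)) ^ 2 = (a' (j + 1) * c' (j + 1)) ^ 2 := by ring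
    have e5 : 16 * (A (j + 1) * A j) = (4 * (a (j + 1) * c j)) * (4 * (c (j + 1) * a j)) := by
      simp only [hA]; ring
    rw [e5, ← e4]
    exact e3
  have hprod : (16 : ℝ) ^ r * ((∏ j ∈ range r, A (j + 1)) * ∏ j ∈ range r, A j) ≤
      ((vpot G' r u * vpot G' r v)) ^ 2 := by
    have hl : (16 : ℝ) ^ r * ((∏ j ∈ range r, A (j + 1)) * ∏ j ∈ range r, A j) =
        ∏ j ∈ range r, (16 * (A (j + 1) * A j)) := by
      have h1 : ∏ j ∈ range r, (16 * (A (j + 1) * A j)) =
          (∏ _j ∈ range r, (16 : ℝ)) * ∏ j ∈ range r, (A (j + 1) * A j) :=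
        Finset.prod_mul_distrib
      have h2 : ∏ j ∈ range r, (A (j + 1) * A j) =
          (∏ j ∈ range r, A (j + 1)) * ∏ j ∈ range r, A j := Finset.prod_mul_distrib
      rw [h1, h2, Finset.prod_const, card_range]
    have hr : (vpot G' r u * vpot G' r v) ^ 2 =
        ∏ j ∈ range r, (a' (j + 1) * c' (j + 1)) ^ 2 := by
      rw [Finset.prod_pow, Finset.prod_mul_distrib]
      rfl
    rw [hl, hr]
    apply Finset.prod_le_prod
    · intro j _
      have := hA_pos (j + 1)
      have := hA_pos j
      positivity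
    · intro j hj
      exact key j (Finset.mem_range.mp hj)
  have hT : (∏ j ∈ range r, A (j + 1)) = vpot G r u * vpot G r v := by
    simp only [hA, vpot]
    rw [Finset.prod_mul_distrib]
  have hshift : (∏ j ∈ range r, A j) * A r = A 0 * ∏ j ∈ range r, A (j + 1) := by
    rw [← Finset.prod_range_succ, Finset.prod_range_succ']
    ring
  have hA0 : A 0 = 1 := by
    simp only [hA, ha, hc]
    rw [ball_zero_card, ball_zero_card]
    norm_num
  have hAr : A r ≤ 4 ^ r := by
    have h1 : a r ≤ 2 ^ r := by
      simp only [ha]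
      have : (ball G u r).card ≤ 2 ^ r := (ball_card_le G u r).trans hn
      exact_mod_cast this
    have h2 : c r ≤ 2 ^ r := by
      simp only [hc]
      have : (ball G v r).card ≤ 2 ^ r := (ball_card_le G v r).trans hn
      exact_mod_cast this
    calc A r = a r * c r := rfl
      _ ≤ 2 ^ r * 2 ^ r := mul_le_mul h1 h2 (hc_pos r).le (by positivity)
      _ = 4 ^ r := by
        rw [← mul_pow]
        norm_num
  set T : ℝ := vpot G r u * vpot G r v with hTdef
  set T' : ℝ := vpot G' r u * vpot G' r v with hT'def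
  have hTpos : 0 < T := mul_pos (vpot_pos G r u) (vpot_pos G r v)
  have hT'pos : 0 < T' := mul_pos (vpot_pos G' r u) (vpot_pos G' r v)
  rw [hT] at hprod hshift
  rw [hA0, one_mul] at hshift
  set B : ℝ := ∏ j ∈ range r, A j with hB
  have hBpos : 0 < B := Finset.prod_pos fun j _ => hA_pos j
  -- from `B * A r = T` and `A r ≤ 4 ^ r` we get `T ≤ 4 ^ r * B`
  have hTB : T ≤ 4 ^ r * B := by
    rw [← hshift, mul_comm]
    exact mul_le_mul_of_nonneg_right hAr hBpos.le
  have hfinal : (2 ^ r * T) ^ 2 ≤ T' ^ 2 := by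
    have h16 : (16 : ℝ) ^ r = 4 ^ r * 4 ^ r := by
      rw [← mul_pow]; norm_num
    have h4 : (2 : ℝ) ^ r * 2 ^ r = 4 ^ r := by
      rw [← mul_pow]; norm_num
    have h4pos : (0 : ℝ) < 4 ^ r := by positivity
    have e : (2 ^ r * T) ^ 2 * 4 ^ r ≤ T' ^ 2 * 4 ^ r := by
      calc (2 ^ r * T) ^ 2 * 4 ^ r = (2 ^ r * 2 ^ r) * T * T * 4 ^ r := by ring
        _ = 4 ^ r * T * T * 4 ^ r := by rw [h4]
        _ = (4 ^ r * 4 ^ r) * (T * T) := by ring
        _ ≤ (4 ^ r * 4 ^ r) * (T * (4 ^ r * B)) := by
          apply mul_le_mul_of_nonneg_left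
          · exact mul_le_mul_of_nonneg_left hTB hTpos.le
          · positivity
        _ = ((4 ^ r * 4 ^ r) * (T * B)) * 4 ^ r := by ring
        _ ≤ T' ^ 2 * 4 ^ r := by
          apply mul_le_mul_of_nonneg_right _ h4pos.le
          rw [← h16]
          exact hprod
    exact le_of_mul_le_mul_right e h4pos
  have h2T : 0 ≤ 2 ^ r * T := by positivity
  exact (pow_le_pow_iff_left₀ h2T hT'pos.le (by norm_num)).mp hfinal

/-- Adding an edge between two far-apart points multiplies the potential by at least `2 ^ r`. -/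
lemma pot_step {G : Finset (V × V)} {u v : V} {r : ℕ} (hfar : ¬ Conn G (2 * r) u v)
    (hn : Fintype.card V ≤ 2 ^ r) :
    2 ^ r * pot G r ≤ pot (insert (u, v) G) r := by
  classical
  set G' := insert (u, v) G with hG'
  have hG : G ⊆ G' := Finset.subset_insert _ _
  have hadj : Adj G' u v := Or.inl (Finset.mem_insert_self _ _)
  have huv : u ≠ v := by
    rintro rfl
    exact hfar (conn_self G _ u)
  have hstep := vpot_step hG hadj hfar hn
  have hsplit : ∀ H : Finset (V × V), pot H r =
      vpot H r u * (vpot H r v * ∏ x ∈ ((univ.erase u).erase v), vpot H r x) := by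
    intro H
    have hv : v ∈ univ.erase u := Finset.mem_erase.mpr ⟨huv.symm, Finset.mem_univ _⟩
    rw [Finset.mul_prod_erase _ _ hv, Finset.mul_prod_erase _ _ (Finset.mem_univ u)]
    rfl
  have hrest : ∏ x ∈ ((univ.erase u).erase v), vpot G r x ≤
      ∏ x ∈ ((univ.erase u).erase v), vpot G' r x :=
    Finset.prod_le_prod (fun x _ => (vpot_pos G r x).le) (fun x _ => vpot_mono hG r x)
  have hrpos : 0 < ∏ x ∈ ((univ.erase u).erase v), vpot G r x :=
    Finset.prod_pos fun x _ => vpot_pos G r x
  rw [hsplit G, hsplit G']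
  calc 2 ^ r * (vpot G r u * (vpot G r v * ∏ x ∈ ((univ.erase u).erase v), vpot G r x))
      = (2 ^ r * (vpot G r u * vpot G r v)) *
          ∏ x ∈ ((univ.erase u).erase v), vpot G r x := by ring
    _ ≤ (vpot G' r u * vpot G' r v) * ∏ x ∈ ((univ.erase u).erase v), vpot G' r x := by
        apply mul_le_mul hstep hrest hrpos.le
        exact (mul_pos (vpot_pos G' r u) (vpot_pos G' r v)).le
    _ = vpot G' r u * (vpot G' r v * ∏ x ∈ ((univ.erase u).erase v), vpot G' r x) := by ring

lemma pot_pos (G : Finset (V × V)) (r : ℕ) : 0 < pot G r :=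
  Finset.prod_pos fun x _ => vpot_pos G r x

lemma one_le_vpot (G : Finset (V × V)) (r : ℕ) (x : V) : 1 ≤ vpot G r x := by
  calc (1 : ℝ) = ∏ _j ∈ range r, (1 : ℝ) := by simp
    _ ≤ vpot G r x := by
      apply Finset.prod_le_prod (fun _ _ => zero_le_one)
      intro j _
      exact_mod_cast ball_card_pos G x _

lemma one_le_pot (G : Finset (V × V)) (r : ℕ) : 1 ≤ pot G r := by
  calc (1 : ℝ) = ∏ _x : V, (1 : ℝ) := by simp
    _ ≤ pot G r := Finset.prod_le_prod (fun _ _ => zero_le_one) (fun x _ => one_le_vpot G r x)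

lemma pot_le (G : Finset (V × V)) (r : ℕ) (hn : Fintype.card V ≤ 2 ^ r) :
    pot G r ≤ (2 : ℝ) ^ (r * (Fintype.card V * r)) := by
  have h1 : ∀ x, vpot G r x ≤ ((2 : ℝ) ^ r) ^ r := by
    intro x
    calc vpot G r x ≤ ∏ _j ∈ range r, ((2 : ℝ) ^ r) := by
          apply Finset.prod_le_prod
          · intro j _
            positivity
          · intro j _
            have : (ball G x (j + 1)).card ≤ 2 ^ r := (ball_card_le G x _).trans hn
            exact_mod_cast this
      _ = ((2 : ℝ) ^ r) ^ r := by
          rw [Finset.prod_const, card_range]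
  calc pot G r ≤ ∏ _x : V, (((2 : ℝ) ^ r) ^ r) :=
        Finset.prod_le_prod (fun x _ => (vpot_pos G r x).le) (fun x _ => h1 x)
    _ = (2 : ℝ) ^ (r * (Fintype.card V * r)) := by
        rw [Finset.prod_const, Finset.card_univ, ← pow_mul, ← pow_mul]
        congr 1
        ring

/-- Existence of the sparse hop-limited spanner. -/
theorem exists_spanner (w : V × V → ℝ) (r : ℕ) (hr : 1 ≤ r) (hn : Fintype.card V ≤ 2 ^ r) :
    ∃ G : Finset (V × V), G.card ≤ Fintype.card V * r ∧ (∀ e ∈ G, e.1 ≠ e.2) ∧
      ∀ u v : V, u ≠ v → Conn (G.filter (fun e => w e ≤ w (u, v))) (2 * r) u v := by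
  classical
  set P : Finset (V × V) := univ.filter (fun p => p.1 ≠ p.2) with hP
  have main : ∃ G : Finset (V × V), G ⊆ P ∧ ((2 : ℝ) ^ r) ^ G.card ≤ pot G r ∧
      ∀ e ∈ P, Conn (G.filter (fun e' => w e' ≤ w e)) (2 * r) e.1 e.2 := by
    have hgen : ∀ T : Finset (V × V), ∃ G : Finset (V × V), G ⊆ T ∧
        ((2 : ℝ) ^ r) ^ G.card ≤ pot G r ∧
        ∀ e ∈ T, Conn (G.filter (fun e' => w e' ≤ w e)) (2 * r) e.1 e.2 := by
      intro T
      induction T using Finset.induction_on_max_value w with
      | empty =>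
        refine ⟨∅, Finset.Subset.refl _, ?_, by simp⟩
        simpa using one_le_pot (∅ : Finset (V × V)) r
      | insert a s has hmax ih =>
        obtain ⟨G, hGs, hpot, hconn⟩ := ih
        obtain ⟨u, v⟩ := a
        by_cases hc : Conn G (2 * r) u v
        · refine ⟨G, hGs.trans (Finset.subset_insert _ _), hpot, ?_⟩
          intro e he
          rcases Finset.mem_insert.mp he with rfl | he
          · have : G.filter (fun e' => w e' ≤ w (u, v)) = G := by
              apply Finset.filter_true_of_mem
              intro x hx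
              exact hmax x (hGs hx)
            rw [this]
            exact hc
          · exact hconn e he
        · have hnot : (u, v) ∉ G := fun h => has (hGs h)
          refine ⟨insert (u, v) G, Finset.insert_subset_insert _ hGs, ?_, ?_⟩
          · rw [Finset.card_insert_of_notMem hnot, pow_succ']
            calc (2 : ℝ) ^ r * ((2 : ℝ) ^ r) ^ G.card ≤ 2 ^ r * pot G r := by
                  apply mul_le_mul_of_nonneg_left hpot
                  positivity
              _ ≤ pot (insert (u, v) G) r := pot_step hc hn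
          · intro e he
            rcases Finset.mem_insert.mp he with rfl | he
            · have h1 : Adj ((insert (u, v) G).filter (fun e' => w e' ≤ w (u, v))) u v := by
                left
                simp
              exact conn_mono_steps (by omega) (conn_of_adj h1)
            · refine conn_mono_graph ?_ (hconn e he)
              intro x hx
              rcases Finset.mem_filter.mp hx with ⟨hx1, hx2⟩
              exact Finset.mem_filter.mpr ⟨Finset.mem_insert_of_mem hx1, hx2⟩
    exact hgen P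
  obtain ⟨G, hGP, hpot, hconn⟩ := main
  refine ⟨G, ?_, ?_, ?_⟩
  · have h := hpot.trans (pot_le G r hn)
    rw [← pow_mul] at h
    have h2 : (1 : ℝ) < 2 := by norm_num
    have h3 := (pow_le_pow_iff_right₀ h2).mp h
    have hrpos : 0 < r := hr
    exact Nat.le_of_mul_le_mul_left h3 hrpos
  · intro e he
    exact (Finset.mem_filter.mp (hGP he)).2
  · intro u v huv
    exact hconn (u, v) (Finset.mem_filter.mpr ⟨Finset.mem_univ _, huv⟩)

/-- Along a path of edges of weight at most `W`, differences of `a` are controlled by the slope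
bound `σ`. -/
lemma abs_sub_le_of_conn (a : V → ℝ) (σ W : ℝ) (hσ : 0 ≤ σ) (hW : 0 ≤ W)
    (G : Finset (V × V)) (d : V × V → ℝ)
    (hedge : ∀ e ∈ G, |a e.1 - a e.2| ≤ σ * d e) (m : ℕ) (u v : V)
    (h : Conn (G.filter (fun e => d e ≤ W)) m u v) : |a u - a v| ≤ m * (σ * W) := by
  classical
  have hstep : ∀ x y : V, Adj (G.filter (fun e => d e ≤ W)) x y → |a x - a y| ≤ σ * W := by
    intro x y hxy
    rcases hxy with hxy | hxy
    · rcases Finset.mem_filter.mp hxy with ⟨h1, h2⟩
      exact (hedge _ h1).trans (mul_le_mul_of_nonneg_left h2 hσ)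
    · rcases Finset.mem_filter.mp hxy with ⟨h1, h2⟩
      rw [abs_sub_comm]
      exact (hedge _ h1).trans (mul_le_mul_of_nonneg_left h2 hσ)
  induction m generalizing v with
  | zero =>
    have : u = v := h
    subst this
    simp
  | succ m ih =>
    have hσW : 0 ≤ σ * W := mul_nonneg hσ hW
    rcases h with h | ⟨x, hx, hadj⟩
    · have := ih v h
      push_cast
      nlinarith
    · have h1 := ih x hx
      have h2 := hstep x v hadj
      have h3 : |a u - a v| ≤ |a u - a x| + |a x - a v| := abs_sub_le _ _ _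
      push_cast
      nlinarith

/-- The pointwise sensitivity bound: the `p`-th power of the slope of `a` on any pair is at most
`(2 r) ^ p` times the sum of the `p`-th powers of its slopes on the edges of the spanner. -/
theorem slope_le_of_spanner {p : ℝ} (hp : 1 ≤ p) (a : V → ℝ) (G : Finset (V × V))
    (d : V × V → ℝ) (hd : ∀ e ∈ G, 0 < d e) (r : ℕ) (u v : V) (huv : 0 < d (u, v))
    (hconn : Conn (G.filter (fun e => d e ≤ d (u, v))) (2 * r) u v) :
    (|a u - a v| / d (u, v)) ^ p ≤
      ((2 * r : ℕ) : ℝ) ^ p * ∑ e ∈ G, (|a e.1 - a e.2| / d e) ^ p := by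
  have hp0 : 0 < p := by linarith
  set E : ℝ := ∑ e ∈ G, (|a e.1 - a e.2| / d e) ^ p with hE
  have hE0 : 0 ≤ E := Finset.sum_nonneg fun e he => by
    have := hd e he
    positivity
  set σ : ℝ := E ^ p⁻¹ with hσ
  have hσ0 : 0 ≤ σ := Real.rpow_nonneg hE0 _
  have hσp : σ ^ p = E := by
    rw [hσ, ← Real.rpow_mul hE0, inv_mul_cancel₀ hp0.ne', Real.rpow_one]
  have hedge : ∀ e ∈ G, |a e.1 - a e.2| ≤ σ * d e := by
    intro e he
    have hde := hd e he
    have h1 : (|a e.1 - a e.2| / d e) ^ p ≤ E :=
      Finset.single_le_sum (f := fun e => (|a e.1 - a e.2| / d e) ^ p)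
        (fun e' he' => by have := hd e' he'; positivity) he
    have h2 : |a e.1 - a e.2| / d e ≤ σ := by
      have h3 : 0 ≤ |a e.1 - a e.2| / d e := by positivity
      calc |a e.1 - a e.2| / d e = ((|a e.1 - a e.2| / d e) ^ p) ^ p⁻¹ := by
            rw [← Real.rpow_mul h3, mul_inv_cancel₀ hp0.ne', Real.rpow_one]
        _ ≤ E ^ p⁻¹ := Real.rpow_le_rpow (by positivity) h1 (by positivity)
    rw [div_le_iff₀ hde] at h2
    exact h2
  have h1 := abs_sub_le_of_conn a σ (d (u, v)) hσ0 huv.le G d hedge (2 * r) u v hconn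
  have h2 : |a u - a v| / d (u, v) ≤ ((2 * r : ℕ) : ℝ) * σ := by
    rw [div_le_iff₀ huv]
    calc |a u - a v| ≤ ((2 * r : ℕ) : ℝ) * (σ * d (u, v)) := h1
      _ = ((2 * r : ℕ) : ℝ) * σ * d (u, v) := by ring
  calc (|a u - a v| / d (u, v)) ^ p ≤ (((2 * r : ℕ) : ℝ) * σ) ^ p :=
        Real.rpow_le_rpow (by positivity) h2 (by positivity)
    _ = ((2 * r : ℕ) : ℝ) ^ p * σ ^ p := Real.mul_rpow (by positivity) hσ0
    _ = ((2 * r : ℕ) : ℝ) ^ p * E := by rw [hσp]

end Vale.Agent.Lib.P249
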