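import Mathlib
import Vale.Agent.Lib.P249.Spanner
import Vale.Agent.Lib.P249.Sampling

/-!
Every `n`-point subset of `L_p` embeds into `ℓ_p^K`, `K` nearly linear in `n`, with arbitrarily small
distortion: total sensitivity is bounded through a sparse spanner of the point set, and then
coordinates are selected by deterministic importance sampling.
-/

namespace Vale.Agent.Lib.P249

open MeasureTheory Finset

set_option linter.unusedSectionVars false

lemma integrable_integral_rpow {Ω : Type*} [MeasurableSpace Ω] {μ : Measure Ω} {p : ℝ} (hp : 1 ≤ p)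
    (f : Lp ℝ (ENNReal.ofReal p) μ) :
    Integrable (fun t => |f t| ^ p) μ ∧ ∫ t, |f t| ^ p ∂μ = ‖f‖ ^ p := by
  have hp0 : 0 < p := by linarith
  have hne : ENNReal.ofReal p ≠ 0 := by
    simpa [ENNReal.ofReal_eq_zero, not_le] using hp0
  have hne' : ENNReal.ofReal p ≠ ⊤ := ENNReal.ofReal_ne_top
  have htr : (ENNReal.ofReal p).toReal = p := ENNReal.toReal_ofReal hp0.le
  have hmem := Lp.memLp f
  have h1 := hmem.integrable_norm_rpow hne hne'
  have h2 := hmem.eLpNorm_eq_integral_rpow_norm hne hne'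
  rw [htr] at h1 h2
  simp only [Real.norm_eq_abs] at h1 h2
  refine ⟨h1, ?_⟩
  have hI0 : 0 ≤ ∫ t, |f t| ^ p ∂μ := integral_nonneg fun t => by positivity
  have h3 : ‖f‖ = (∫ t, |f t| ^ p ∂μ) ^ p⁻¹ := by
    rw [Lp.norm_def, h2, ENNReal.toReal_ofReal (by positivity)]
  rw [h3, ← Real.rpow_mul hI0, inv_mul_cancel₀ hp0.ne', Real.rpow_one]

lemma integrable_integral_sub_rpow {Ω : Type*} [MeasurableSpace Ω] {μ : Measure Ω} {p : ℝ}
    (hp : 1 ≤ p) (f g : Lp ℝ (ENNReal.ofReal p) μ) :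
    Integrable (fun t => |f t - g t| ^ p) μ ∧ ∫ t, |f t - g t| ^ p ∂μ = ‖f - g‖ ^ p := by
  obtain ⟨h1, h2⟩ := integrable_integral_rpow hp (f - g)
  have hae : (fun t => |(f - g : Lp ℝ (ENNReal.ofReal p) μ) t| ^ p) =ᵐ[μ]
      fun t => |f t - g t| ^ p := by
    filter_upwards [Lp.coeFn_sub f g] with t ht
    rw [ht]
    rfl
  exact ⟨h1.congr hae, by rw [← h2]; exact integral_congr_ae hae.symm⟩

lemma conn_empty {V : Type*} [Fintype V] [DecidableEq V] {m : ℕ} {u v : V}
    (h : Conn (∅ : Finset (V × V)) m u v) : u = v := by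
  induction m generalizing v with
  | zero => exact h
  | succ m ih =>
    rcases h with h | ⟨x, _, hadj⟩
    · exact ih h
    · rcases hadj with h | h <;> simp at h

/-- The main embedding theorem, with the target dimension `K` as a parameter. -/
theorem embedding (n : ℕ) (hn : 2 ≤ n) (p ε : ℝ) (hp : 1 ≤ p) (hε : 0 < ε) (hε1 : ε < 1)
    {Ω : Type*} [MeasurableSpace Ω] (μ : Measure Ω) (x : Fin n → Lp ℝ (ENNReal.ofReal p) μ)
    (hx : Function.Injective x) (K : ℕ)
    (hK : 4 * ((n : ℝ) * (Nat.clog 2 n : ℝ) * (((2 * Nat.clog 2 n : ℕ) : ℝ) ^ p)) *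
      Real.log (2 * (n : ℝ) ^ 2) / ε ^ 2 ≤ K) :
    ∃ f : Fin n → Fin K → ℝ, ∀ i j : Fin n,
      (1 - ε) * ‖x i - x j‖ ^ p ≤ ∑ k, |f i k - f j k| ^ p ∧
      ∑ k, |f i k - f j k| ^ p ≤ (1 + ε) * ‖x i - x j‖ ^ p := by
  classical
  have hp0 : 0 < p := by linarith
  have : Fact (1 ≤ ENNReal.ofReal p) := ⟨by simpa using hp⟩
  set r : ℕ := Nat.clog 2 n with hr
  have hr1 : 1 ≤ r := Nat.clog_pos (by norm_num) hn
  have hnr : n ≤ 2 ^ r := Nat.le_pow_clog (by norm_num) n
  have hcard : Fintype.card (Fin n) ≤ 2 ^ r := by simpa using hnr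
  set d : Fin n × Fin n → ℝ := fun e => ‖x e.1 - x e.2‖ with hd
  have hdpos : ∀ u v : Fin n, u ≠ v → 0 < d (u, v) := by
    intro u v huv
    simp only [hd]
    exact norm_pos_iff.mpr (sub_ne_zero.mpr (hx.ne huv))
  obtain ⟨G, hGcard, hGoff, hGconn⟩ := exists_spanner d r hr1 hcard
  rw [Fintype.card_fin] at hGcard
  set P : Finset (Fin n × Fin n) := univ.filter (fun a => a.1 ≠ a.2) with hP
  set y : Fin n → Ω → ℝ := fun i => (x i : Ω → ℝ) with hy
  set w : Fin n × Fin n → Ω → ℝ := fun a t => (|y a.1 t - y a.2 t| / d a) ^ p with hw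
  have hw0 : ∀ a t, 0 ≤ w a t := fun a t => by
    simp only [hw, hd]
    positivity
  have hwboth : ∀ a : Fin n × Fin n, a.1 ≠ a.2 → Integrable (w a) μ ∧ ∫ t, w a t ∂μ = 1 := by
    intro a ha
    have hda : 0 < d a := hdpos a.1 a.2 ha
    obtain ⟨h1, h2⟩ := integrable_integral_sub_rpow hp (x a.1) (x a.2)
    have hform : w a = fun t => |y a.1 t - y a.2 t| ^ p / d a ^ p := by
      funext t
      simp only [hw]
      rw [Real.div_rpow (abs_nonneg _) hda.le]
    rw [hform]
    refine ⟨h1.div_const _, ?_⟩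
    rw [integral_div]
    have h3 : ∫ t, |y a.1 t - y a.2 t| ^ p ∂μ = d a ^ p := h2
    rw [h3]
    exact div_self (Real.rpow_pos_of_pos hda p).ne'
  set s : Ω → ℝ := fun t => ∑ e ∈ G, w e t with hs
  have hs0 : ∀ t, 0 ≤ s t := fun t => Finset.sum_nonneg fun e _ => hw0 e t
  have hsi : Integrable s μ := integrable_finsetSum G (fun e he => (hwboth e (hGoff e he)).1)
  have hsint : ∫ t, s t ∂μ = (G.card : ℝ) := by
    have : ∫ t, s t ∂μ = ∑ e ∈ G, ∫ t, w e t ∂μ :=
      integral_finsetSum G (fun e he => (hwboth e (hGoff e he)).1)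
    rw [this, Finset.sum_congr rfl (fun e he => (hwboth e (hGoff e he)).2)]
    simp
  -- two distinct points
  have hn0 : 0 < n := by omega
  have hn1 : 1 < n := by omega
  set u₀ : Fin n := ⟨0, hn0⟩ with hu₀
  set v₀ : Fin n := ⟨1, hn1⟩ with hv₀
  have huv₀ : u₀ ≠ v₀ := by
    simp [hu₀, hv₀, Fin.ext_iff]
  have hGne : G.Nonempty := by
    by_contra hemp
    rw [Finset.not_nonempty_iff_eq_empty] at hemp
    have h := hGconn u₀ v₀ huv₀
    rw [hemp, Finset.filter_empty] at h
    exact huv₀ (conn_empty h)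
  set S : ℝ := (G.card : ℝ) with hS
  have hSpos : 0 < S := by
    simp only [hS]
    exact_mod_cast Finset.card_pos.mpr hGne
  set b : ℝ := ((2 * r : ℕ) : ℝ) ^ p with hb
  have hb0 : 0 < b := by
    apply Real.rpow_pos_of_pos
    have : 0 < 2 * r := by omega
    exact_mod_cast this
  set M : ℝ := (n : ℝ) * (r : ℝ) * b with hM
  have hrpos : (0 : ℝ) < r := by exact_mod_cast hr1
  have hnpos : (0 : ℝ) < n := by exact_mod_cast hn0
  have hMpos : 0 < M := by positivity
  have hSle : S ≤ (n : ℝ) * r := by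
    simp only [hS]
    exact_mod_cast hGcard
  have hwle : ∀ a ∈ P, ∀ t, S * w a t ≤ M * s t := by
    intro a ha t
    have ha' : a.1 ≠ a.2 := (Finset.mem_filter.mp ha).2
    have h1 := slope_le_of_spanner hp (fun i => y i t) G d
      (fun e he => hdpos e.1 e.2 (hGoff e he)) r a.1 a.2 (hdpos a.1 a.2 ha') (hGconn a.1 a.2 ha')
    have h2 : w a t ≤ b * s t := h1
    calc S * w a t ≤ ((n : ℝ) * r) * w a t := mul_le_mul_of_nonneg_right hSle (hw0 a t)
      _ ≤ ((n : ℝ) * r) * (b * s t) := mul_le_mul_of_nonneg_left h2 (by positivity)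
      _ = M * s t := by simp only [hM]; ring
  -- the dimension hypothesis
  have hPne : 0 < P.card := Finset.card_pos.mpr
    ⟨(u₀, v₀), Finset.mem_filter.mpr ⟨Finset.mem_univ _, huv₀⟩⟩
  have hPle : (P.card : ℝ) ≤ (n : ℝ) ^ 2 := by
    have h1 : P.card ≤ (univ : Finset (Fin n × Fin n)).card := Finset.card_filter_le _ _
    have h2 : (univ : Finset (Fin n × Fin n)).card = n ^ 2 := by
      simp [Finset.card_univ, Fintype.card_prod, sq]
    rw [h2] at h1
    exact_mod_cast h1
  have hlog : Real.log (2 * P.card) ≤ Real.log (2 * (n : ℝ) ^ 2) := by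
    apply Real.log_le_log
    · have : (0 : ℝ) < P.card := by exact_mod_cast hPne
      positivity
    · linarith
  have hlog0 : 0 < Real.log (2 * (n : ℝ) ^ 2) := by
    apply Real.log_pos
    have : (2 : ℝ) ≤ n := by exact_mod_cast hn
    nlinarith
  have hK' : 4 * M * Real.log (2 * P.card) / ε ^ 2 ≤ K := by
    refine le_trans ?_ hK
    apply div_le_div_of_nonneg_right _ (by positivity)
    exact mul_le_mul_of_nonneg_left hlog (by positivity)
  have hKpos : (0 : ℝ) < K := lt_of_lt_of_le (by positivity) hK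
  obtain ⟨τ, hτ⟩ := sampling μ P s w S M ε K hSpos hMpos hε hε1.le hs0 hsi hsint hw0
    (fun a ha => (hwboth a (Finset.mem_filter.mp ha).2).1)
    (fun a ha => (hwboth a (Finset.mem_filter.mp ha).2).2) hwle hK'
  refine ⟨fun i k => y i (τ k) * (S / (K * s (τ k))) ^ p⁻¹, fun i j => ?_⟩
  by_cases hij : i = j
  · subst hij
    simp only [sub_self, abs_zero, Real.zero_rpow hp0.ne', norm_zero, mul_zero,
      Finset.sum_const_zero, le_refl, and_self]
  · set a : Fin n × Fin n := (i, j) with ha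
    have haP : a ∈ P := Finset.mem_filter.mpr ⟨Finset.mem_univ _, hij⟩
    have hda : 0 < d a := hdpos i j hij
    have hdap : 0 < d a ^ p := Real.rpow_pos_of_pos hda p
    obtain ⟨h1, h2⟩ := hτ a haP
    have hterm : ∀ k, |y i (τ k) * (S / (K * s (τ k))) ^ p⁻¹ -
        y j (τ k) * (S / (K * s (τ k))) ^ p⁻¹| ^ p =
        (d a ^ p / K) * (S * w a (τ k) / s (τ k)) := by
      intro k
      set t := τ k with ht
      have hc0 : 0 ≤ S / (K * s t) := div_nonneg hSpos.le (mul_nonneg hKpos.le (hs0 t))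
      have h3 : y i t * (S / (K * s t)) ^ p⁻¹ - y j t * (S / (K * s t)) ^ p⁻¹ =
          (y i t - y j t) * (S / (K * s t)) ^ p⁻¹ := by ring
      have h4 : ((S / (K * s t)) ^ p⁻¹) ^ p = S / (K * s t) := by
        rw [← Real.rpow_mul hc0, inv_mul_cancel₀ hp0.ne', Real.rpow_one]
      have hcp : 0 ≤ (S / (K * s t)) ^ p⁻¹ := Real.rpow_nonneg hc0 _
      rw [h3, abs_mul, abs_of_nonneg hcp, Real.mul_rpow (abs_nonneg _) hcp, h4]
      have h5 : w a t = |y i t - y j t| ^ p / d a ^ p := by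
        simp only [hw, ha]
        rw [Real.div_rpow (abs_nonneg _) (hda.le)]
      rw [h5]
      by_cases hst : s t = 0
      · simp [hst]
      · field_simp
    have hsum : ∑ k, |y i (τ k) * (S / (K * s (τ k))) ^ p⁻¹ -
        y j (τ k) * (S / (K * s (τ k))) ^ p⁻¹| ^ p =
        (d a ^ p / K) * ∑ k, S * w a (τ k) / s (τ k) := by
      rw [Finset.mul_sum]
      exact Finset.sum_congr rfl fun k _ => hterm k
    have hdef : ‖x i - x j‖ = d a := rfl
    simp only [hdef]
    rw [hsum]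
    have hfac : 0 < d a ^ p / K := div_pos hdap hKpos
    constructor
    · calc (1 - ε) * d a ^ p = (d a ^ p / K) * ((1 - ε) * K) := by
            field_simp
        _ ≤ (d a ^ p / K) * ∑ k, S * w a (τ k) / s (τ k) :=
            mul_le_mul_of_nonneg_left h1 hfac.le
    · calc (d a ^ p / K) * ∑ k, S * w a (τ k) / s (τ k)
          ≤ (d a ^ p / K) * ((1 + ε) * K) := mul_le_mul_of_nonneg_left h2 hfac.le
        _ = (1 + ε) * d a ^ p := by
            field_simp

end Vale.Agent.Lib.P249
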